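import Vale.Agent.P057.Bdl.B1
import Vale.Agent.P057.H336.VandKill
import Vale.Agent.P057.H829.Hit
import Vale.Agent.P057.H562.Per

open Finset

namespace Vale.Agent.P057.H419

open Vale.Agent.P057.Lower

/-- piece (C): periodicity modulo `M'` along steps `N` makes the progression genuine -/
def PieceC : Prop := ∀ (N D k p h : ℕ), 1 ≤ N → 1 ≤ D → N * (2 * D + 4) ≤ k → p.Prime →
  2 ^ (D + 2) * N ^ (D + 1) * (D + 1).factorial < p → 2 * h < p → ∀ u : ℕ → ℤ,
  (∀ j < k, |u j| ≤ h) → (∀ j, j + (D + 1) < k → (p : ℤ) ∣ (fwdDiff 1)^[D + 1] u j) →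
  (∀ j, j + N < k →
    ((2 ^ (D + 2) * N ^ (D + 1) * (D + 1).factorial : ℕ) : ℤ) ∣ u (j + N) - u j) →
  ∀ j, j + (D + 1) < k → (fwdDiff 1)^[D + 1] u j = 0

theorem comp_fwd (N a m : ℕ) : ∀ (u : ℕ → ℤ) (s : ℕ),
    (fwdDiff 1)^[m] (fun s => u (a + N * s)) s = (fwdDiff N)^[m] u (a + N * s) := by
  induction m with
  | zero => intro u s; rfl
  | succ m ih =>
    intro u s
    have e : fwdDiff 1 (fun s => u (a + N * s)) = fun s => fwdDiff N u (a + N * s) := by
      funext t
      simp only [fwdDiff]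
      rw [show a + N * (t + 1) = a + N * t + N by ring]
    rw [Function.iterate_succ_apply, Function.iterate_succ_apply, ← ih (fwdDiff N u) s, e]

theorem exists_window (N k L j : ℕ) (hL : 2 ≤ L) (hNL : N * L ≤ k) (hj : j + N < k) :
    ∃ a t : ℕ, a + N * t = j ∧ t + 1 < L ∧ a + N * (L - 1) < k := by
  classical
  have e1 : N * (L - 1) = N * (L - 2) + N := by
    obtain ⟨m, rfl⟩ : ∃ m, L = m + 2 := ⟨L - 2, by omega⟩
    simp only [Nat.add_sub_cancel]
    rw [show m + 2 - 1 = m + 1 by omega]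
    ring
  have e2 : N * L = N * (L - 1) + N := by
    obtain ⟨m, rfl⟩ : ∃ m, L = m + 1 := ⟨L - 1, by omega⟩
    simp only [Nat.add_sub_cancel]
    ring
  have hex : ∃ t, j + N * (L - 1) < k + N * t := ⟨L - 2, by omega⟩
  have hsp := Nat.find_spec hex
  have hle : Nat.find hex ≤ L - 2 := Nat.find_min' hex (by omega)
  rcases Nat.eq_zero_or_pos (Nat.find hex) with h0 | h0
  · rw [h0] at hsp
    exact ⟨j, 0, by simp, by omega, by omega⟩
  · have hmin := Nat.find_min hex (m := Nat.find hex - 1) (by omega)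
    set t := Nat.find hex with ht
    have e3 : N * t = N * (t - 1) + N := by
      obtain ⟨m, hm⟩ : ∃ m, t = m + 1 := ⟨t - 1, by omega⟩
      rw [hm]
      simp only [Nat.add_sub_cancel]
      ring
    refine ⟨j - N * t, t, ?_, by omega, ?_⟩
    · omega
    · omega

theorem block_hit (v D k p h L w r d M' : ℕ) (hv : 2 ≤ v)
    (hr : D + 1 ≤ r * (v * (v - 1) / 2)) (hd : d = r * (v * (v - 1) / 2))
    (hdL : d < L) (hNL : v.factorial * L ≤ k) (hh : v.factorial ^ r * h < p)
    (hC : ∀ u : ℕ → ℤ, (∀ j < k, |u j| ≤ h) →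
      (∀ j, j + (D + 1) < k → (p : ℤ) ∣ (fwdDiff 1)^[D + 1] u j) →
      (∀ j, j + v.factorial < k → (M' : ℤ) ∣ u (j + v.factorial) - u j) →
      ∀ j, j + (D + 1) < k → (fwdDiff 1)^[D + 1] u j = 0)
    (R : Finset (ZMod (M' ^ (w + 1))))
    (hR : ∀ A : ℕ → ℤ, (∀ s, s + d < L → (fwdDiff 1)^[d] A s = 0) →
      (∀ s < L, ((A s : ℤ) : ZMod (M' ^ (w + 1))) ∉ R) → ∀ s < L, (M' : ℤ) ∣ A s - A 0) :
    Block k D p ((Finset.Icc (-(h : ℤ)) h).filter
      (fun u => ((u : ℤ) : ZMod (M' ^ (w + 1))) ∉ R)) := by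
  have hr1 : 1 ≤ r := by
    rcases Nat.eq_zero_or_pos r with h0 | h0
    · rw [h0, zero_mul] at hr; omega
    · exact h0
  have hv2 : 2 ≤ v.factorial := by
    calc 2 = (2 : ℕ).factorial := rfl
      _ ≤ v.factorial := Nat.factorial_le hv
  have hv2r : 2 ≤ v.factorial ^ r := le_trans hv2 (Nat.le_self_pow (by omega) _)
  have h2h : 2 * h < p := lt_of_le_of_lt (Nat.mul_le_mul_right h hv2r) hh
  constructor
  · intro a ha b hb hdvd
    rw [Finset.mem_filter, Finset.mem_Icc] at ha hb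
    have h3 : |a - b| < p := by
      rw [abs_lt]
      constructor <;> omega
    have := Int.eq_zero_of_abs_lt_dvd hdvd h3
    omega
  · intro u hu hdvd
    have hub : ∀ j < k, |u j| ≤ h := by
      intro j hj
      have := (Finset.mem_Icc.1 (Finset.mem_filter.1 (hu j hj)).1)
      rw [abs_le]
      exact this
    have hA := H336.vand_kill v r D k p h hv hr hh u hub hdvd
    rw [← hd] at hA
    refine hC u hub hdvd ?_
    intro j hj
    obtain ⟨a, t, h1, h2, h3⟩ := exists_window v.factorial k L j (by omega) hNL hj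
    have hlt : ∀ s < L, a + v.factorial * s < k := by
      intro s hs
      have : v.factorial * s ≤ v.factorial * (L - 1) := Nat.mul_le_mul_left _ (by omega)
      omega
    have h4 := hR (fun s => u (a + v.factorial * s)) (by
      intro s hs
      rw [comp_fwd]
      apply hA
      have := hlt (s + d) hs
      rw [mul_add] at this
      omega) (by
      intro s hs
      exact (Finset.mem_filter.1 (hu _ (hlt s hs))).2)
    have h5 := h4 t (by omega)
    have h6 := h4 (t + 1) h2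
    have h7 := dvd_sub h6 h5
    have e1 : a + v.factorial * (t + 1) = j + v.factorial := by rw [← h1]; ring
    simp only [e1, h1] at h7
    have e2 : u (j + v.factorial) - u (a + v.factorial * 0) - (u j - u (a + v.factorial * 0)) =
        u (j + v.factorial) - u j := by ring
    rw [e2] at h7
    exact h7

/-- at least half of the residues, in an interval -/
theorem card_good (M h : ℕ) [NeZero M] (R : Finset (ZMod M)) (hR : 2 * R.card ≤ M) :
    (2 * (h : ℝ) + 1) - M ≤ 2 * (((Finset.Icc (-(h : ℤ)) h).filter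
      (fun u => ((u : ℤ) : ZMod M) ∉ R)).card : ℝ) := by
  classical
  have hM0 : 0 < M := Nat.pos_of_ne_zero (NeZero.ne M)
  set q := (2 * h + 1) / M with hq
  have hinj : ((Finset.univ \ R) ×ˢ Finset.range q).card ≤ ((Finset.Icc (-(h : ℤ)) h).filter
      (fun u => ((u : ℤ) : ZMod M) ∉ R)).card := by
    apply Finset.card_le_card_of_injOn
      (fun x => -(h : ℤ) + ((M * x.2 + (x.1 + (h : ZMod M)).val : ℕ) : ℤ))
    · rintro ⟨ρ, i⟩ hx
      simp only [Finset.coe_product, Set.mem_prod, Finset.mem_coe, Finset.mem_sdiff,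
        Finset.mem_univ, true_and, Finset.mem_range] at hx
      have hval : (ρ + (h : ZMod M)).val < M := ZMod.val_lt _
      have h1 : M * i + M ≤ 2 * h + 1 := by
        have h2 : M * (i + 1) ≤ M * q := Nat.mul_le_mul_left _ hx.2
        have h3 : M * q ≤ 2 * h + 1 := Nat.mul_div_le _ _
        rw [mul_add, mul_one] at h2
        omega
      simp only [Finset.coe_filter, Set.mem_ofPred_eq, Finset.mem_Icc]
      refine ⟨⟨by omega, by omega⟩, ?_⟩
      have e : ((-(h : ℤ) + ((M * i + (ρ + (h : ZMod M)).val : ℕ) : ℤ) : ℤ) : ZMod M) = ρ := by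
        push_cast
        rw [ZMod.natCast_self, zero_mul, zero_add, ZMod.natCast_zmod_val]
        ring
      rw [e]
      exact hx.1
    · rintro ⟨ρ, i⟩ hx ⟨ρ', i'⟩ hx' hxy
      simp only at hxy
      have hval : (ρ + (h : ZMod M)).val < M := ZMod.val_lt _
      have hval' : (ρ' + (h : ZMod M)).val < M := ZMod.val_lt _
      have e0 : M * i + (ρ + (h : ZMod M)).val = M * i' + (ρ' + (h : ZMod M)).val := by
        omega
      have e1 : i = i' := by
        have a1 : (M * i + (ρ + (h : ZMod M)).val) / M = i := by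
          rw [Nat.mul_add_div hM0, Nat.div_eq_of_lt hval, add_zero]
        have a2 : (M * i' + (ρ' + (h : ZMod M)).val) / M = i' := by
          rw [Nat.mul_add_div hM0, Nat.div_eq_of_lt hval', add_zero]
        rw [← a1, ← a2, e0]
      subst e1
      have e2 : (ρ + (h : ZMod M)).val = (ρ' + (h : ZMod M)).val := by omega
      have e3 : ρ + (h : ZMod M) = ρ' + (h : ZMod M) := ZMod.val_injective M e2
      have e4 : ρ = ρ' := add_right_cancel e3
      rw [e4]
  rw [Finset.card_product, Finset.card_range, Finset.card_sdiff, Finset.inter_univ,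
    Finset.card_univ, ZMod.card] at hinj
  have hq1 : 2 * h + 1 ≤ M * q + M := by
    have := Nat.lt_mul_div_succ (2 * h + 1) hM0
    rw [mul_add, mul_one] at this
    exact this.le
  have h2 : (M : ℝ) ≤ 2 * ((M - R.card : ℕ) : ℝ) := by
    have : M ≤ 2 * (M - R.card) := by omega
    exact_mod_cast this
  have h3 : (2 * (h : ℝ) + 1) ≤ M * q + M := by exact_mod_cast hq1
  have h4 : (((M - R.card : ℕ) : ℝ) * q) ≤ (((Finset.Icc (-(h : ℤ)) h).filter
      (fun u => ((u : ℤ) : ZMod M) ∉ R)).card : ℝ) := by exact_mod_cast hinj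
  have h5 : (M : ℝ) * q ≤ 2 * ((M - R.card : ℕ) : ℝ) * q :=
    mul_le_mul_of_nonneg_right h2 (Nat.cast_nonneg q)
  linarith

/-- cost `log Q` at level `D`, for any `Q ≥ (v!)^r` for which piece (C) holds -/
theorem cost_gen (v D k L w r d M' Q : ℕ) (hv : 2 ≤ v)
    (hr : D + 1 ≤ r * (v * (v - 1) / 2)) (hd : d = r * (v * (v - 1) / 2))
    (hM'2 : 2 ≤ M') (hdL : d < L)
    (hw : L ^ (d * d) < 2 ^ w) (hL : 2 * (d : ℝ) ^ 2 * ((w + 1) * Real.log M') < L)
    (hNL : v.factorial * L ≤ k) (hQ : v.factorial ^ r ≤ Q)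
    (hC : ∃ p0 : ℕ, ∀ p : ℕ, p0 ≤ p → p.Prime → ∀ h : ℕ, Q * h < p →
      ∀ u : ℕ → ℤ, (∀ j < k, |u j| ≤ h) →
      (∀ j, j + (D + 1) < k → (p : ℤ) ∣ (fwdDiff 1)^[D + 1] u j) →
      (∀ j, j + v.factorial < k → (M' : ℤ) ∣ u (j + v.factorial) - u j) →
      ∀ j, j + (D + 1) < k → (fwdDiff 1)^[D + 1] u j = 0) :
    Cost k D (Real.log Q) := by
  intro η hη
  obtain ⟨p0, hp0⟩ := hC
  obtain ⟨R, hRc, hR⟩ := H829.hit_poly d M' L w (by
    rw [← hd] at hr; omega) hM'2 hdL hw hL
  have : NeZero (M' ^ (w + 1)) := ⟨(pow_pos (by omega) _).ne'⟩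
  have hlt : Real.exp (-η) < 1 := Real.exp_lt_one_iff.2 (by linarith)
  have hQ1 : 0 < Q := lt_of_lt_of_le (pow_pos (Nat.factorial_pos v) r) hQ
  have hQ0 : (0 : ℝ) < (Q : ℝ) := by exact_mod_cast hQ1
  obtain ⟨m0, hm0⟩ := eventually_div_le ((Q : ℝ) * ((M' ^ (w + 1) : ℕ) + 1))
    (2 * (1 - Real.exp (-η))) (by linarith)
  refine ⟨max (max m0 1) p0, fun p hp hpp => ?_⟩
  have hp1 : m0 ≤ p := le_trans (le_trans (le_max_left _ _) (le_max_left _ _)) hp
  have hp2 : 1 ≤ p := le_trans (le_trans (le_max_right _ _) (le_max_left _ _)) hp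
  have hp3 : p0 ≤ p := le_trans (le_max_right _ _) hp
  set h := (p - 1) / Q with hh
  have h1 : Q * h < p := by
    have := Nat.mul_div_le (p - 1) Q
    rw [← hh] at this
    omega
  have h1' : v.factorial ^ r * h < p := lt_of_le_of_lt (Nat.mul_le_mul_right h hQ) h1
  refine ⟨_, block_hit v D k p h L w r d M' hv hr hd hdL hNL h1' (hp0 p hp3 hpp h h1) R hR,
    ?_, ?_⟩
  · intro u hu
    have := Finset.mem_Icc.1 (Finset.mem_filter.1 hu).1
    have h2 : h ≤ p := (Nat.div_le_self _ _).trans (Nat.sub_le _ _)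
    rw [abs_le]
    constructor <;> omega
  · have hcard := card_good (M' ^ (w + 1)) h R hRc
    have hpR : (0 : ℝ) < p := by exact_mod_cast hp2
    have h2 : p ≤ Q * (h + 1) := by
      have := Nat.lt_mul_div_succ (p - 1) hQ1
      rw [← hh] at this
      omega
    have h3 : (p : ℝ) ≤ Q * (h + 1) := by exact_mod_cast h2
    have h4 := hm0 p hp1
    rw [div_le_iff₀ hpR] at h4
    have h5 : Real.exp (-(Real.log Q + η)) = Real.exp (-η) / Q := by
      rw [neg_add, Real.exp_add, Real.exp_neg (Real.log Q), Real.exp_log hQ0]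
      field_simp
    rw [h5, div_le_div_iff₀ hQ0 hpR]
    generalize hU : (((Finset.Icc (-(h : ℤ)) h).filter
      (fun u => ((u : ℤ) : ZMod (M' ^ (w + 1))) ∉ R)).card : ℝ) = U at hcard ⊢
    have h6 : (Q : ℝ) * ((2 * (h : ℝ) + 1) - ((M' ^ (w + 1) : ℕ) : ℝ)) ≤ Q * (2 * U) :=
      mul_le_mul_of_nonneg_left hcard hQ0.le
    nlinarith only [h3, h4, h6]

/-- **(BLK), first form**: cost `r log (v!)` at level `D`, from `PieceC` -/
theorem cost_block (hC : PieceC) (v D k L w r d M' : ℕ) (hv : 2 ≤ v) (hD : 1 ≤ D)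
    (hr : D + 1 ≤ r * (v * (v - 1) / 2)) (hd : d = r * (v * (v - 1) / 2))
    (hM' : M' = 2 ^ (D + 2) * v.factorial ^ (D + 1) * (D + 1).factorial) (hdL : d < L)
    (hw : L ^ (d * d) < 2 ^ w) (hL : 2 * (d : ℝ) ^ 2 * ((w + 1) * Real.log M') < L)
    (hNL : v.factorial * L ≤ k) (hk2 : v.factorial * (2 * D + 4) ≤ k) :
    Cost k D (r * Real.log v.factorial) := by
  have hv2 : 2 ≤ v.factorial := by
    calc 2 = (2 : ℕ).factorial := rfl
      _ ≤ v.factorial := Nat.factorial_le hv
  have hvp : 0 < v.factorial := by omega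
  have hM'2 : 2 ≤ M' := by
    rw [hM']
    have h1 : 2 ≤ 2 ^ (D + 2) := Nat.le_self_pow (by omega) 2
    have h2 : 1 ≤ v.factorial ^ (D + 1) := Nat.one_le_pow _ _ hvp
    have h3 : 1 ≤ (D + 1).factorial := Nat.factorial_pos _
    calc 2 = 2 * 1 * 1 := rfl
      _ ≤ _ := Nat.mul_le_mul (Nat.mul_le_mul h1 h2) h3
  have hr1 : 1 ≤ r := by
    rcases Nat.eq_zero_or_pos r with h0 | h0
    · rw [h0, zero_mul] at hr; omega
    · exact h0
  have hv2r : 2 ≤ v.factorial ^ r := le_trans hv2 (Nat.le_self_pow (by omega) _)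
  have h := cost_gen v D k L w r d M' (v.factorial ^ r) hv hr hd hM'2 hdL hw hL hNL le_rfl
    ⟨M' + 1, fun p hp hpp h hh u hu hdvd hper => hC v.factorial D k p h (by omega) hD hk2 hpp
      (by rw [← hM']; omega) (lt_of_le_of_lt (Nat.mul_le_mul_right h hv2r) hh) u hu hdvd
      (by rw [← hM']; exact hper)⟩
  have e : Real.log ((v.factorial ^ r : ℕ) : ℝ) = r * Real.log v.factorial := by
    push_cast
    rw [Real.log_pow]
  rw [e] at h
  exact h

/-- **(BLK), literal of 562**: cost `r log (v!) + 2 log 2` at level `D`, no hypothesis -/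
theorem cost_vand (v D k r L w : ℕ) (hv : 2 ≤ v) (_hD : 1 ≤ D)
    (hr : D + 1 ≤ r * (v * (v - 1) / 2)) (hL : v.factorial * L ≤ k)
    (hk : v.factorial * (D + 5) ≤ k) (hdL : r * (v * (v - 1) / 2) < L)
    (hw : L ^ ((r * (v * (v - 1) / 2)) * (r * (v * (v - 1) / 2))) < 2 ^ w)
    (hLL : 2 * ((r * (v * (v - 1) / 2) : ℕ) : ℝ) ^ 2 *
      ((w + 1) * Real.log (H562.modu v.factorial D)) < L) :
    Cost k D (r * Real.log v.factorial + 2 * Real.log 2) := by
  have hv2 : 2 ≤ v.factorial := by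
    calc 2 = (2 : ℕ).factorial := rfl
      _ ≤ v.factorial := Nat.factorial_le hv
  have hM2 : 2 ^ (D + 2) ≤ H562.modu v.factorial D := H562.modu_ge _ _ (by omega)
  have hM'2 : 2 ≤ H562.modu v.factorial D := by
    have : 2 ≤ 2 ^ (D + 2) := Nat.le_self_pow (by omega) 2
    omega
  have hpow : 1 ≤ v.factorial ^ r := Nat.one_le_pow _ _ (by omega)
  have h := cost_gen v D k L w r _ (H562.modu v.factorial D) (4 * v.factorial ^ r) hv hr rfl hM'2
    hdL hw hLL hL (by omega)
    ⟨H562.modu v.factorial D + 1, fun p hp hpp h hh u hu hdvd hper =>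
      H562.periodic_genuine v.factorial D k p h hv2 hpp.pos (by
        rw [Nat.isCoprime_iff_coprime]
        rw [Nat.Prime.coprime_iff_not_dvd hpp]
        intro hdv
        have := Nat.le_of_dvd (by omega) hdv
        omega) (by
        have h1 : 4 * h ≤ 4 * v.factorial ^ r * h := Nat.mul_le_mul_right h (by omega)
        omega) hk u hu hdvd hper⟩
  have e : Real.log ((4 * v.factorial ^ r : ℕ) : ℝ) =
      r * Real.log v.factorial + 2 * Real.log 2 := by
    push_cast
    have hp : (0 : ℝ) < (v.factorial : ℝ) := by exact_mod_cast Nat.factorial_pos v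
    rw [Real.log_mul (by norm_num) (by positivity), Real.log_pow,
      show (4 : ℝ) = 2 ^ 2 by norm_num, Real.log_pow]
    push_cast
    ring
  rw [e] at h
  exact h

theorem cost_mono {k D : ℕ} {c c' : ℝ} (hcc : c ≤ c') (h : Cost k D c) : Cost k D c' := by
  intro η hη
  obtain ⟨m0, hm0⟩ := h η hη
  refine ⟨m0, fun p hp hpp => ?_⟩
  obtain ⟨U, h1, h2, h3⟩ := hm0 p hp hpp
  exact ⟨U, h1, h2, le_trans (Real.exp_le_exp.2 (by linarith)) h3⟩

end Vale.Agent.P057.H419
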