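import Vale.Agent.P057.Bdl.B1

open Finset

namespace Vale.Agent.P057.H419

open Vale.Agent.P057.Lower

/-- `Asy` is monotone in the constant. -/
theorem asy_mono {k D s : ℕ} {G G' : ℝ} (hG : 0 ≤ G) (hGG : G ≤ G') (h : Asy k D s G) :
    Asy k D s G' := by
  intro ε hε
  obtain ⟨N0, hN0⟩ := h ε hε
  refine ⟨N0, fun N hN => (hN0 N hN).mono ?_⟩
  have hl : 0 ≤ Real.log N := Real.log_natCast_nonneg N
  apply Real.exp_le_exp.2
  apply neg_le_neg
  apply mul_le_mul_of_nonneg_left
  · apply Real.rpow_le_rpow (mul_nonneg hG hl) (mul_le_mul_of_nonneg_right hGG hl)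
    positivity
  · positivity

/-- the tower of levels -/
theorem tower (k n : ℕ) (hn : 2 ≤ n) (hk : 2 ^ (n - 1) < k) (c : ℕ → ℝ)
    (hc : ∀ j, j + 2 ≤ n → 0 < c j ∧ Cost k (2 ^ j) (c j)) :
    Asy k 1 n (∏ j ∈ Finset.range (n - 1), (2 * c j)) := by
  have key : ∀ t, t + 1 ≤ n →
      Asy k (2 ^ (n - 1 - t)) (t + 1) (∏ j ∈ Finset.Ico (n - 1 - t) (n - 1), (2 * c j)) := by
    intro t
    induction t with
    | zero =>
      intro _
      simp only [Nat.sub_zero, zero_add, Finset.Ico_self, Finset.prod_empty]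
      exact base k _ Nat.one_le_two_pow hk
    | succ t ih =>
      intro ht
      have h := ih (by omega)
      have e1 : 2 ^ (n - 1 - t) = 2 * 2 ^ (n - 1 - (t + 1)) := by
        rw [← pow_succ']
        congr 1
        omega
      rw [e1] at h
      have hlt : 2 ^ (n - 1 - (t + 1)) < k :=
        lt_of_le_of_lt (Nat.pow_le_pow_right (by norm_num) (by omega)) hk
      obtain ⟨hc0, hcc⟩ := hc (n - 1 - (t + 1)) (by omega)
      have hpos : 0 < ∏ j ∈ Finset.Ico (n - 1 - t) (n - 1), (2 * c j) := by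
        apply Finset.prod_pos
        intro j hj
        have := Finset.mem_Ico.1 hj
        have := (hc j (by omega)).1
        positivity
      have hst := step k (2 ^ (n - 1 - (t + 1))) (t + 1) Nat.one_le_two_pow hlt (by omega)
        (c (n - 1 - (t + 1))) _ hc0 hpos hcc h
      have e2 : ∏ j ∈ Finset.Ico (n - 1 - (t + 1)) (n - 1), (2 * c j) =
          2 * c (n - 1 - (t + 1)) * ∏ j ∈ Finset.Ico (n - 1 - t) (n - 1), (2 * c j) := by
        rw [Finset.prod_eq_prod_Ico_succ_bot (by omega)]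
        have e3 : n - 1 - (t + 1) + 1 = n - 1 - t := by omega
        rw [e3]
      rw [e2]
      exact hst
  have h := key (n - 1) (by omega)
  have e1 : n - 1 - (n - 1) = 0 := by omega
  have e2 : n - 1 + 1 = n := by omega
  rw [e1, e2, pow_zero] at h
  rw [Finset.range_eq_Ico]
  exact h

theorem prod_two_pow (n : ℕ) : ∏ j ∈ Finset.range (n - 1), (2 * (((2 ^ j : ℕ) : ℝ) * Real.log 2)) =
    2 ^ (n * (n - 1) / 2) * Real.log 2 ^ (n - 1) := by
  have h1 : ∀ m : ℕ, ∏ j ∈ Finset.range m, (2 * (((2 ^ j : ℕ) : ℝ) * Real.log 2)) =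
      2 ^ ((m + 1) * m / 2) * Real.log 2 ^ m := by
    intro m
    induction m with
    | zero => simp
    | succ m ih =>
      rw [Finset.prod_range_succ, ih]
      have e : (m + 1 + 1) * (m + 1) / 2 = (m + 1) * m / 2 + (m + 1) := by
        have : (m + 1 + 1) * (m + 1) = (m + 1) * m + (m + 1) * 2 := by ring
        rw [this, Nat.add_mul_div_right _ _ (by norm_num)]
      rw [e]
      push_cast
      ring
  rcases Nat.eq_zero_or_pos n with rfl | hn
  · simp
  · rw [h1 (n - 1)]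
    have : n - 1 + 1 = n := by omega
    rw [this]

/-- **Limit form**: if the cost at the levels `D0 ≤ D ≤ k^(1/10)` is `θ D log 2` for every
`θ > 0` (`k` large), then the constant is `c^n` times O'Bryant's, for every `c > 0`. -/
theorem lim (H : ∀ θ : ℝ, 0 < θ → ∃ D0 K0 : ℕ, ∀ k : ℕ, K0 ≤ k → ∀ D : ℕ, D0 ≤ D → D ^ 10 ≤ k →
      Cost k D (θ * D * Real.log 2)) :
    ∀ c : ℝ, 0 < c → ∃ K : ℕ, ∀ k : ℕ, K ≤ k → 2 ≤ Nat.clog 2 k ∧
      Asy k 1 (Nat.clog 2 k) (c ^ (Nat.clog 2 k) *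
        2 ^ (Nat.clog 2 k * (Nat.clog 2 k - 1) / 2) * Real.log 2 ^ (Nat.clog 2 k - 1)) := by
  intro c hc
  classical
  set c' : ℝ := min c 1 with hc'
  have hc'0 : 0 < c' := lt_min hc one_pos
  have hc'1 : c' ≤ 1 := min_le_right _ _
  have hc'c : c' ≤ c := min_le_left _ _
  set θ : ℝ := c' ^ 20 with hθ
  have hθ0 : 0 < θ := by positivity
  obtain ⟨D0, K0, hH⟩ := H θ hθ0
  refine ⟨max K0 (2 ^ (20 * D0 + 2)), fun k hk => ?_⟩
  have hkK : K0 ≤ k := le_trans (le_max_left _ _) hk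
  have hk2 : 2 ^ (20 * D0 + 2) ≤ k := le_trans (le_max_right _ _) hk
  set n := Nat.clog 2 k with hn
  have hkn : k ≤ 2 ^ n := Nat.le_pow_clog (by norm_num) k
  have hnD : 20 * D0 + 2 ≤ n := (Nat.pow_le_pow_iff_right (by norm_num)).1 (hk2.trans hkn)
  have h4k : 4 ≤ k := by
    have : 2 ^ 2 ≤ 2 ^ (20 * D0 + 2) := Nat.pow_le_pow_right (by norm_num) (by omega)
    omega
  have hlt : 2 ^ (n - 1) < k := Nat.pow_pred_clog_lt_self (by norm_num) (by omega)
  refine ⟨by omega, ?_⟩
  have hlog : 0 < Real.log 2 := Real.log_pos (by norm_num)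
  let P : ℕ → Prop := fun j => D0 ≤ 2 ^ j ∧ (2 ^ j) ^ 10 ≤ k
  let th : ℕ → ℝ := fun j => if P j then θ else 1
  have hth : ∀ j, 0 < th j := by
    intro j
    by_cases h : P j
    · simp only [th, if_pos h]; exact hθ0
    · simp only [th, if_neg h]; exact one_pos
  have hT := tower k n (by omega) hlt (fun j => th j * (((2 ^ j : ℕ) : ℝ) * Real.log 2)) (by
    intro j _
    refine ⟨mul_pos (hth j) (by positivity), ?_⟩
    by_cases h : P j
    · have := hH k hkK (2 ^ j) h.1 h.2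
      simp only [th, if_pos h]
      rw [← mul_assoc]
      exact this
    · simp only [th, if_neg h, one_mul]
      exact cost_interval k (2 ^ j))
  refine asy_mono ?_ ?_ hT
  · exact Finset.prod_nonneg fun j _ => by have := hth j; positivity
  · have e1 : ∏ j ∈ Finset.range (n - 1), (2 * (th j * (((2 ^ j : ℕ) : ℝ) * Real.log 2))) =
        (∏ j ∈ Finset.range (n - 1), th j) *
          ∏ j ∈ Finset.range (n - 1), (2 * (((2 ^ j : ℕ) : ℝ) * Real.log 2)) := by
      rw [← Finset.prod_mul_distrib]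
      exact Finset.prod_congr rfl fun j _ => by ring
    rw [e1, prod_two_pow, mul_assoc]
    apply mul_le_mul_of_nonneg_right _ (by positivity)
    have hsub : Finset.Icc D0 ((n - 1) / 10) ⊆ (Finset.range (n - 1)).filter P := by
      intro j hj
      have h1 := Finset.mem_Icc.1 hj
      rw [Finset.mem_filter, Finset.mem_range]
      refine ⟨by omega, ?_, ?_⟩
      · exact le_trans h1.1 (Nat.lt_two_pow_self).le
      · rw [← pow_mul]
        refine le_trans (Nat.pow_le_pow_right (by norm_num) ?_) hlt.le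
        omega
    have hcard : (n - 1) / 10 + 1 - D0 ≤ ((Finset.range (n - 1)).filter P).card := by
      have := Finset.card_le_card hsub
      rwa [Nat.card_Icc] at this
    have e2 : ∏ j ∈ Finset.range (n - 1), th j = θ ^ ((Finset.range (n - 1)).filter P).card := by
      simp only [th]
      rw [Finset.prod_ite, Finset.prod_const, Finset.prod_const_one, mul_one]
    rw [e2, hθ, ← pow_mul]
    calc c' ^ (20 * ((Finset.range (n - 1)).filter P).card) ≤ c' ^ n :=
          pow_le_pow_of_le_one hc'0.le hc'1 (by omega)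
      _ ≤ c ^ n := pow_le_pow_left₀ hc'0.le hc'c n

/-- literal form of the note #25305 -/
theorem lim' (H : ∀ θ : ℝ, θ > 0 → ∃ D0 K0 : ℕ, ∀ k : ℕ, k ≥ K0 → ∀ D : ℕ, D0 ≤ D → D ^ 10 ≤ k →
      Cost k D (θ * D * Real.log 2)) :
    ∀ c : ℝ, c > 0 → ∃ K : ℕ, ∀ k : ℕ, k ≥ K → ∀ n : ℕ, n = Nat.clog 2 k → 2 ≤ n ∧
      Asy k 1 n (c ^ n * 2 ^ (n * (n - 1) / 2) * Real.log 2 ^ (n - 1)) := by
  intro c hc
  obtain ⟨K, hK⟩ := lim H c hc
  refine ⟨K, fun k hk n hn => ?_⟩
  subst hn
  exact hK k hk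

end Vale.Agent.P057.H419
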