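import Vale.Agent.P057.H419.Blk
import Vale.Agent.P057.H419.Lim
import Vale.Agent.P057.H562.LogM
import Vale.Agent.P057.H203.TowFin

open Finset

namespace Vale.Agent.P057.H419

open Vale.Agent.P057.Lower Vale.Agent.P057.H562

theorem pow_of_log {m : ℕ} (hm : 2 ≤ m) (hlog : 368 * Real.log m ≤ m * Real.log 2) :
    m ^ 368 ≤ 2 ^ m := by
  have hm0 : (0 : ℝ) < m := by
    have : 0 < m := by omega
    exact_mod_cast this
  have h1 : Real.log ((m : ℝ) ^ 368) ≤ Real.log ((2 : ℝ) ^ m) := by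
    rw [Real.log_pow, Real.log_pow]
    exact_mod_cast hlog
  have h2 := (Real.log_le_log_iff (by positivity) (by positivity)).1 h1
  exact_mod_cast h2

/-- the factorial of `m^23` is at most `2^(n/16+1)` if `m^24 ≤ n` -/
theorem fact_le {m n : ℕ} (hm : 2 ≤ m) (h368 : m ^ 368 ≤ 2 ^ m) (hmn : m ^ 24 ≤ n) :
    (m ^ 23).factorial ≤ 2 ^ (n / 16 + 1) := by
  have h1 : (m ^ 23).factorial ≤ (m ^ 23) ^ (m ^ 23) := Nat.factorial_le_pow _
  have h2 : ((m ^ 23) ^ (m ^ 23)) ^ 16 ≤ 2 ^ n := by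
    calc ((m ^ 23) ^ (m ^ 23)) ^ 16 = (m ^ 368) ^ (m ^ 23) := by
          rw [← pow_mul, ← pow_mul, ← pow_mul]
          congr 1
          ring
      _ ≤ (2 ^ m) ^ (m ^ 23) := Nat.pow_le_pow_left h368 _
      _ = 2 ^ (m ^ 24) := by
          rw [← pow_mul]
          congr 1
          ring
      _ ≤ 2 ^ n := Nat.pow_le_pow_right (by norm_num) hmn
  have h3 : ((m ^ 23).factorial) ^ 16 ≤ (2 ^ (n / 16 + 1)) ^ 16 := by
    calc ((m ^ 23).factorial) ^ 16 ≤ ((m ^ 23) ^ (m ^ 23)) ^ 16 := Nat.pow_le_pow_left h1 _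
      _ ≤ 2 ^ n := h2
      _ ≤ 2 ^ ((n / 16 + 1) * 16) := Nat.pow_le_pow_right (by norm_num) (by omega)
      _ = (2 ^ (n / 16 + 1)) ^ 16 := by rw [pow_mul]
  exact (Nat.pow_le_pow_iff_left (by norm_num)).1 h3

/-- the window condition -/
theorem num_window (N D d : ℕ) (hN0 : 0 < N) (hD2048 : 2048 ≤ D) (hd2 : d ≤ 2 * D)
    (hlogND : Real.log N ≤ D) :
    2 * (d : ℝ) ^ 2 * ((((9 * (d * d) * D : ℕ)) + 1) * Real.log (modu N D)) < ((D ^ 9 : ℕ) : ℝ) := by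
  have hDr : (2048 : ℝ) ≤ D := by exact_mod_cast hD2048
  have hD0r : (0 : ℝ) < D := by linarith
  have hM := log_modu N D hN0
  have hM0 : 0 ≤ Real.log (modu N D) := Real.log_natCast_nonneg _
  have h1 : Real.log ((D : ℝ) + 2) ≤ (D : ℝ) + 1 := by
    have := Real.log_le_sub_one_of_pos (show (0 : ℝ) < (D : ℝ) + 2 by linarith)
    linarith
  have h1' : 0 ≤ Real.log ((D : ℝ) + 2) := Real.log_nonneg (by linarith)
  have hlN : 0 ≤ Real.log (N : ℝ) := Real.log_natCast_nonneg N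
  have h2 : Real.log (modu N D) ≤ 6 * (D : ℝ) ^ 3 := by
    refine hM.trans ?_
    have a1 : ((D : ℝ) + 2) ^ 2 ≤ 2 * (D : ℝ) ^ 2 := by nlinarith only [hDr]
    have a2 : Real.log N + Real.log ((D : ℝ) + 2) + 1 ≤ 3 * D := by linarith only [hlogND, h1, hDr]
    have a3 : 0 ≤ Real.log N + Real.log ((D : ℝ) + 2) + 1 := by linarith only [hlN, h1']
    calc ((D : ℝ) + 2) ^ 2 * (Real.log N + Real.log ((D : ℝ) + 2) + 1)
        ≤ (2 * (D : ℝ) ^ 2) * (3 * D) := mul_le_mul a1 a2 a3 (by positivity)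
      _ = 6 * (D : ℝ) ^ 3 := by ring
  have hdr : (d : ℝ) ≤ 2 * D := by exact_mod_cast hd2
  have hd0r : (0 : ℝ) ≤ d := Nat.cast_nonneg d
  have hdd : (d : ℝ) ^ 2 ≤ 4 * (D : ℝ) ^ 2 := by nlinarith only [hdr, hd0r]
  have hw : (((9 * (d * d) * D : ℕ)) : ℝ) + 1 ≤ 37 * (D : ℝ) ^ 3 := by
    push_cast
    have h1 : (9 : ℝ) * (d * d) * D ≤ 36 * (D : ℝ) ^ 3 := by
      calc (9 : ℝ) * (d * d) * D = 9 * (d : ℝ) ^ 2 * D := by ring
        _ ≤ 9 * (4 * (D : ℝ) ^ 2) * D := by gcongr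
        _ = 36 * (D : ℝ) ^ 3 := by ring
    have h2 : (1 : ℝ) ≤ (D : ℝ) ^ 3 := one_le_pow₀ (by linarith)
    linarith only [h1, h2]
  have hw0 : 0 ≤ (((9 * (d * d) * D : ℕ)) : ℝ) + 1 := by positivity
  generalize (((9 * (d * d) * D : ℕ)) : ℝ) + 1 = W at hw hw0 ⊢
  generalize Real.log (modu N D) = M at h2 hM0 ⊢
  calc 2 * (d : ℝ) ^ 2 * (W * M)
      ≤ 2 * (4 * (D : ℝ) ^ 2) * ((37 * (D : ℝ) ^ 3) * (6 * (D : ℝ) ^ 3)) := by
        apply mul_le_mul _ (mul_le_mul hw h2 hM0 (by positivity)) (mul_nonneg hw0 hM0)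
          (by positivity)
        linarith only [hdd]
    _ = 1776 * (D : ℝ) ^ 8 := by ring
    _ < D * (D : ℝ) ^ 8 := by
        apply mul_lt_mul_of_pos_right _ (by positivity)
        linarith only [hDr]
    _ = ((D ^ 9 : ℕ) : ℝ) := by push_cast; ring

/-- the cost is at most `m^(-22)` times that of the interval -/
theorem num_cost (m v E r D : ℕ) (lN : ℝ) (hm : 2 ≤ m)
    (hlog : 368 * Real.log m ≤ m * Real.log 2) (hv : v = m ^ 23) (hE : E = v * (v - 1) / 2)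
    (hrE : r * E ≤ 2 * D) (hmD : m ^ 46 * 2 ^ 11 ≤ D) (hlogN : lN ≤ v * Real.log v) :
    r * lN + 2 * Real.log 2 ≤ 1 / (m : ℝ) ^ 22 * ((D : ℝ) * Real.log 2) := by
  have hl2 : 0 < Real.log 2 := Real.log_pos (by norm_num)
  have hmx : (2 : ℝ) ≤ m := by exact_mod_cast hm
  have hm0 : (0 : ℝ) < m := by linarith
  have hv2 : 2 ≤ v := by
    rw [hv]
    calc 2 ≤ m := hm
      _ ≤ m ^ 23 := Nat.le_self_pow (by norm_num) m
  have hvr : (v : ℝ) = (m : ℝ) ^ 23 := by rw [hv]; push_cast; rfl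
  have hv0 : (0 : ℝ) < v := by rw [hvr]; positivity
  have hv2r : (2 : ℝ) ≤ v := by exact_mod_cast hv2
  have hEr : (E : ℝ) = (v : ℝ) * (v - 1) / 2 := by
    rw [hE, Nat.cast_div (Nat.even_mul_pred_self v).two_dvd (by norm_num), Nat.cast_mul,
      Nat.cast_sub (by omega)]
    norm_num
  have hE4 : (v : ℝ) ^ 2 ≤ 4 * E := by rw [hEr]; nlinarith only [hv2r]
  have hrEr : (r : ℝ) * E ≤ 2 * D := by exact_mod_cast hrE
  have hlogv : Real.log v = 23 * Real.log m := by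
    rw [hvr, Real.log_pow]; norm_num
  have hlm : 0 ≤ Real.log m := Real.log_natCast_nonneg m
  have hr0 : (0 : ℝ) ≤ r := Nat.cast_nonneg r
  have hDr : (0 : ℝ) ≤ D := Nat.cast_nonneg D
  have key1 : (r : ℝ) * lN ≤ 1 / 2 * (1 / (m : ℝ) ^ 22 * (D * Real.log 2)) := by
    have e1 : 1 / 2 * (1 / (m : ℝ) ^ 22 * (D * Real.log 2)) =
        (D * (m * Real.log 2)) / (2 * v) := by
      rw [hvr]
      field_simp
    rw [e1, le_div_iff₀ (by positivity)]
    rw [hlogv] at hlogN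
    calc (r : ℝ) * lN * (2 * v) ≤ r * (v * (23 * Real.log m)) * (2 * v) := by
          apply mul_le_mul_of_nonneg_right _ (by positivity)
          exact mul_le_mul_of_nonneg_left hlogN hr0
      _ = 46 * Real.log m * r * ((v : ℝ) ^ 2) := by ring
      _ ≤ 46 * Real.log m * r * (4 * E) := mul_le_mul_of_nonneg_left hE4 (by positivity)
      _ = 184 * Real.log m * (r * E) := by ring
      _ ≤ 184 * Real.log m * (2 * D) := mul_le_mul_of_nonneg_left hrEr (by positivity)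
      _ = D * (368 * Real.log m) := by ring
      _ ≤ D * (m * Real.log 2) := mul_le_mul_of_nonneg_left hlog hDr
  have key2 : 2 * Real.log 2 ≤ 1 / 2 * (1 / (m : ℝ) ^ 22 * (D * Real.log 2)) := by
    have h1 : (m : ℝ) ^ 46 * 2 ^ 11 ≤ D := by exact_mod_cast hmD
    have h2 : (m : ℝ) ^ 22 ≤ (m : ℝ) ^ 46 := pow_le_pow_right₀ (by linarith) (by norm_num)
    have h3 : 4 * (m : ℝ) ^ 22 ≤ D := by
      have h4 := pow_pos hm0 46
      linarith only [h1, h2, h4]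
    have e1 : 1 / 2 * (1 / (m : ℝ) ^ 22 * (D * Real.log 2)) =
        (D * Real.log 2) / (2 * (m : ℝ) ^ 22) := by field_simp
    rw [e1, le_div_iff₀ (by positivity)]
    calc 2 * Real.log 2 * (2 * (m : ℝ) ^ 22) = 4 * (m : ℝ) ^ 22 * Real.log 2 := by ring
      _ ≤ D * Real.log 2 := mul_le_mul_of_nonneg_right h3 hl2.le
  linarith only [key1, key2]

/-- the comparison of the constants -/
theorem num_cmp (m n : ℕ) (hn0 : 0 < n) (hm19 : 2 ^ 19 ≤ m) (hm2 : n < (m + 1) ^ 24) :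
    1 / (m : ℝ) ^ 2 ≤ (n : ℝ) ^ (-(1 : ℝ) / 13) / 2 := by
  have hnpos : (0 : ℝ) < n := by exact_mod_cast hn0
  have hmr : ((2 : ℝ)) ^ 19 ≤ m := by exact_mod_cast hm19
  have hmpos : (0 : ℝ) < m := lt_of_lt_of_le (by positivity) hmr
  have h1 : (n : ℝ) * 2 ^ 13 ≤ (m : ℝ) ^ 26 := by
    have h2 : n ≤ (2 * m) ^ 24 := hm2.le.trans (Nat.pow_le_pow_left (by omega) 24)
    have h3 : (n : ℝ) ≤ (2 * (m : ℝ)) ^ 24 := by exact_mod_cast h2
    have h4 : (2 : ℝ) ^ 37 ≤ (m : ℝ) ^ 2 := by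
      calc (2 : ℝ) ^ 37 ≤ (2 ^ 19) ^ 2 := by norm_num
        _ ≤ (m : ℝ) ^ 2 := pow_le_pow_left₀ (by positivity) hmr 2
    calc (n : ℝ) * 2 ^ 13 ≤ (2 * (m : ℝ)) ^ 24 * 2 ^ 13 :=
          mul_le_mul_of_nonneg_right h3 (by positivity)
      _ = 2 ^ 37 * (m : ℝ) ^ 24 := by rw [mul_pow]; ring
      _ ≤ (m : ℝ) ^ 2 * (m : ℝ) ^ 24 := mul_le_mul_of_nonneg_right h4 (by positivity)
      _ = (m : ℝ) ^ 26 := by ring
  have h2 : (n : ℝ) ^ ((1 : ℝ) / 13) * 2 ≤ (m : ℝ) ^ 2 := by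
    have h3 := Real.rpow_le_rpow (by positivity) h1 (show (0 : ℝ) ≤ 1 / 13 by norm_num)
    rw [Real.mul_rpow hnpos.le (by positivity)] at h3
    have h4 : ((2 : ℝ) ^ 13) ^ ((1 : ℝ) / 13) = 2 := by
      rw [← Real.rpow_natCast, ← Real.rpow_mul (by norm_num)]
      norm_num
    have h5 : ((m : ℝ) ^ 26) ^ ((1 : ℝ) / 13) = (m : ℝ) ^ 2 := by
      rw [← Real.rpow_natCast, ← Real.rpow_mul hmpos.le, ← Real.rpow_natCast (m : ℝ) 2]
      congr 1
      norm_num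
    rw [h4, h5] at h3
    exact h3
  have h3 : (n : ℝ) ^ (-(1 : ℝ) / 13) = ((n : ℝ) ^ ((1 : ℝ) / 13))⁻¹ := by
    rw [← Real.rpow_neg hnpos.le]
    congr 1
    norm_num
  have h4 : 0 < (n : ℝ) ^ ((1 : ℝ) / 13) := Real.rpow_pos_of_pos hnpos _
  rw [h3, div_le_div_iff₀ (by positivity) (by norm_num), one_mul, inv_mul_eq_div,
    le_div_iff₀ h4, mul_comm]
  exact h2

/-- the cost of the level `2^j` for `46 m + 11 ≤ j ≤ (n-1)/10` -/
theorem cost_level (m n k j : ℕ) (hm : 2 ≤ m) (hlog : 368 * Real.log m ≤ m * Real.log 2)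
    (hmn : m ^ 24 ≤ n) (hk : 2 ^ (n - 1) < k) (hj1 : 46 * m + 11 ≤ j) (hj2 : j ≤ (n - 1) / 10) :
    Cost k (2 ^ j) (1 / (m : ℝ) ^ 22 * (((2 ^ j : ℕ) : ℝ) * Real.log 2)) := by
  have h368 := pow_of_log hm hlog
  have hl2 : 0 < Real.log 2 := Real.log_pos (by norm_num)
  have hmx : (2 : ℝ) ≤ m := by exact_mod_cast hm
  have hm0 : (0 : ℝ) < m := by linarith
  obtain ⟨D, hD⟩ : ∃ D, D = 2 ^ j := ⟨_, rfl⟩
  obtain ⟨v, hv⟩ : ∃ v, v = m ^ 23 := ⟨_, rfl⟩
  obtain ⟨N, hN⟩ : ∃ N, N = v.factorial := ⟨_, rfl⟩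
  obtain ⟨E, hE⟩ : ∃ E, E = v * (v - 1) / 2 := ⟨_, rfl⟩
  rw [← hD]
  have hv2 : 2 ≤ v := by
    rw [hv]
    calc 2 ≤ m := hm
      _ ≤ m ^ 23 := Nat.le_self_pow (by norm_num) m
  have hmD : m ^ 46 * 2 ^ 11 ≤ D := by
    rw [hD]
    calc m ^ 46 * 2 ^ 11 ≤ (2 ^ m) ^ 46 * 2 ^ 11 :=
          Nat.mul_le_mul_right _ (Nat.pow_le_pow_left Nat.lt_two_pow_self.le _)
      _ = 2 ^ (46 * m + 11) := by rw [← pow_mul, ← pow_add]; congr 1; ring
      _ ≤ 2 ^ j := Nat.pow_le_pow_right (by norm_num) hj1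
  have hm46 : 1 ≤ m ^ 46 := Nat.one_le_pow _ _ (by omega)
  have hD2048 : 2048 ≤ D := by
    calc 2048 = 1 * 2 ^ 11 := by norm_num
      _ ≤ m ^ 46 * 2 ^ 11 := Nat.mul_le_mul_right _ hm46
      _ ≤ D := hmD
  have hvvD : v * v ≤ D := by
    have : v * v = m ^ 46 := by rw [hv, ← pow_add]
    omega
  have hE0 : 0 < E := by
    rw [hE]
    have : 2 ≤ v * (v - 1) := by
      calc 2 = 2 * 1 := by norm_num
        _ ≤ v * (v - 1) := Nat.mul_le_mul hv2 (by omega)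
    omega
  have hEv : E ≤ v * v := by
    rw [hE]
    calc v * (v - 1) / 2 ≤ v * (v - 1) := Nat.div_le_self _ _
      _ ≤ v * v := Nat.mul_le_mul_left _ (Nat.sub_le _ _)
  have hED : E ≤ D := hEv.trans hvvD
  obtain ⟨r, hr⟩ : ∃ r, r = D / E + 1 := ⟨_, rfl⟩
  have hrE : D + 1 ≤ r * E := by
    rw [hr, mul_comm]
    exact Nat.lt_mul_div_succ D hE0
  obtain ⟨d, hd⟩ : ∃ d, d = r * E := ⟨_, rfl⟩
  have hd2 : d ≤ 2 * D := by
    rw [hd, hr, add_mul, one_mul]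
    have := Nat.div_mul_le_self D E
    omega
  have hd0 : 0 < d := by omega
  have hNle : N ≤ 2 ^ (n / 16 + 1) := by rw [hN, hv]; exact fact_le hm h368 hmn
  have hN0 : 0 < N := by rw [hN]; exact Nat.factorial_pos v
  have hn : 2 ^ 24 ≤ n := le_trans (Nat.pow_le_pow_left hm 24) hmn
  have hNL : N * D ^ 9 ≤ k := by
    calc N * D ^ 9 ≤ 2 ^ (n / 16 + 1) * (2 ^ j) ^ 9 := by rw [hD]; exact Nat.mul_le_mul_right _ hNle
      _ = 2 ^ (n / 16 + 1 + j * 9) := by rw [← pow_mul, ← pow_add]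
      _ ≤ 2 ^ (n - 1) := Nat.pow_le_pow_right (by norm_num) (by omega)
      _ ≤ k := hk.le
  have hD9 : D + 5 ≤ D ^ 9 := by
    calc D + 5 ≤ D * D := by nlinarith
      _ = D ^ 2 := by ring
      _ ≤ D ^ 9 := Nat.pow_le_pow_right (by omega) (by norm_num)
  have hDr : (2048 : ℝ) ≤ D := by exact_mod_cast hD2048
  have hD0r : (0 : ℝ) < D := by linarith
  have hvr : (v : ℝ) = (m : ℝ) ^ 23 := by rw [hv]; push_cast; rfl
  have hv0 : (0 : ℝ) < v := by rw [hvr]; positivity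
  have hv2r : (2 : ℝ) ≤ v := by exact_mod_cast hv2
  have hlogN : Real.log N ≤ v * Real.log v := by
    have h1 : (N : ℝ) ≤ (v : ℝ) ^ v := by rw [hN]; exact_mod_cast Nat.factorial_le_pow v
    calc Real.log N ≤ Real.log ((v : ℝ) ^ v) := Real.log_le_log (by exact_mod_cast hN0) h1
      _ = v * Real.log v := by rw [Real.log_pow]
  have hlogN0 : 0 ≤ Real.log N := Real.log_natCast_nonneg N
  have hlogND : Real.log N ≤ D := by
    have h1 : Real.log v ≤ v := (Real.log_le_sub_one_of_pos hv0).trans (by linarith)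
    have h2 : (v : ℝ) * v ≤ D := by exact_mod_cast hvvD
    nlinarith
  have hcost := cost_vand v D k r (D ^ 9) (9 * (d * d) * D) hv2 (by omega)
    (by rw [← hE]; exact hrE) (by rw [← hN]; exact hNL)
    (by rw [← hN]; exact le_trans (Nat.mul_le_mul_left N hD9) hNL)
    (by
      rw [← hE, ← hd]
      calc d ≤ 2 * D := hd2
        _ < D * D := Nat.mul_lt_mul_of_pos_right (by omega) (by omega)
        _ = D ^ 2 := by ring
        _ ≤ D ^ 9 := Nat.pow_le_pow_right (by omega) (by norm_num))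
    (by
      rw [← hE, ← hd]
      have h1 : D < 2 ^ D := Nat.lt_two_pow_self
      have hdd : 0 < d * d := Nat.mul_pos hd0 hd0
      calc (D ^ 9) ^ (d * d) = D ^ (9 * (d * d)) := by rw [← pow_mul]
        _ < (2 ^ D) ^ (9 * (d * d)) := Nat.pow_lt_pow_left h1 (by omega)
        _ = 2 ^ (9 * (d * d) * D) := by rw [← pow_mul]; congr 1; ring)
    (by
      rw [← hE, ← hd, ← hN]
      exact num_window N D d hN0 hD2048 hd2 hlogND)
  refine cost_mono ?_ hcost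
  rw [← hN]
  exact num_cost m v E r D (Real.log N) hm hlog hv hE (by rw [← hd]; exact hd2) hmD hlogN

/-- gain `1/m^2` per level on average, `m^24 ≤ n` -/
theorem asy_quant (m n k : ℕ) (hm : 2 ≤ m) (hlog : 368 * Real.log m ≤ m * Real.log 2)
    (hmn : m ^ 24 ≤ n) (hk : 2 ^ (n - 1) < k) :
    Asy k 1 n ((1 / (m : ℝ) ^ 2) ^ n * 2 ^ (n * (n - 1) / 2) * Real.log 2 ^ (n - 1)) := by
  classical
  have hl2 : 0 < Real.log 2 := Real.log_pos (by norm_num)
  have hmx : (2 : ℝ) ≤ m := by exact_mod_cast hm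
  have hm0 : (0 : ℝ) < m := by linarith
  set θ : ℝ := 1 / (m : ℝ) ^ 22 with hθ
  have hθ0 : 0 < θ := by positivity
  have hn : 6000 * m + 2000 ≤ n := by
    have h1 : m * 2 ^ 23 ≤ m * m ^ 23 := Nat.mul_le_mul_left _ (Nat.pow_le_pow_left hm 23)
    have h2 : m * m ^ 23 = m ^ 24 := by ring
    omega
  let P : ℕ → Prop := fun j => 46 * m + 11 ≤ j ∧ j ≤ (n - 1) / 10
  let th : ℕ → ℝ := fun j => if P j then θ else 1
  have hth : ∀ j, 0 < th j := by
    intro j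
    by_cases h : P j
    · simp only [th, if_pos h]; exact hθ0
    · simp only [th, if_neg h]; exact one_pos
  have hT := tower k n (by omega) hk (fun j => th j * (((2 ^ j : ℕ) : ℝ) * Real.log 2)) (by
    intro j _
    refine ⟨mul_pos (hth j) (by positivity), ?_⟩
    by_cases h : P j
    · simp only [th, if_pos h]
      exact cost_level m n k j hm hlog hmn hk h.1 h.2
    · simp only [th, if_neg h, one_mul]
      exact cost_interval k (2 ^ j))
  refine asy_mono ?_ ?_ hT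
  · exact Finset.prod_nonneg fun j _ => by have := hth j; positivity
  · have e1 : ∏ j ∈ Finset.range (n - 1), (2 * (th j * (((2 ^ j : ℕ) : ℝ) * Real.log 2))) =
        (∏ j ∈ Finset.range (n - 1), th j) *
          ∏ j ∈ Finset.range (n - 1), (2 * (((2 ^ j : ℕ) : ℝ) * Real.log 2)) := by
      rw [← Finset.prod_mul_distrib]
      exact Finset.prod_congr rfl fun j _ => by ring
    rw [e1, prod_two_pow, mul_assoc]
    apply mul_le_mul_of_nonneg_right _ (by positivity)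
    have hsub : Finset.Icc (46 * m + 11) ((n - 1) / 10) ⊆ (Finset.range (n - 1)).filter P := by
      intro j hj
      have h1 := Finset.mem_Icc.1 hj
      rw [Finset.mem_filter, Finset.mem_range]
      exact ⟨by omega, h1.1, h1.2⟩
    have hcard : (n - 1) / 10 + 1 - (46 * m + 11) ≤ ((Finset.range (n - 1)).filter P).card := by
      have := Finset.card_le_card hsub
      rwa [Nat.card_Icc] at this
    have e2 : ∏ j ∈ Finset.range (n - 1), th j = θ ^ ((Finset.range (n - 1)).filter P).card := by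
      simp only [th]
      rw [Finset.prod_ite, Finset.prod_const, Finset.prod_const_one, mul_one]
    have e3 : θ = (1 / (m : ℝ) ^ 2) ^ 11 := by
      rw [hθ, div_pow, one_pow, ← pow_mul]
    rw [e2, e3, ← pow_mul]
    apply pow_le_pow_of_le_one (by positivity)
    · rw [div_le_one (by positivity)]
      exact one_le_pow₀ (by linarith)
    · omega

theorem quant_step (m n k : ℕ) (hm19 : 2 ^ 19 ≤ m) (hlog : 368 * Real.log m ≤ m * Real.log 2)
    (hm1 : m ^ 24 ≤ n) (hm2 : n < (m + 1) ^ 24) (hlt : 2 ^ (n - 1) < k) (c : ℝ)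
    (hc : c = (n : ℝ) ^ (-(1 : ℝ) / 13)) : Asy k 1 n ((c / 2) ^ n * 2 ^ (n * (n - 1) / 2) *
      Real.log 2 ^ (n - 1)) := by
  have hm0 : 2 ≤ m := le_trans (by norm_num) hm19
  have hn0 : 0 < n := lt_of_lt_of_le (pow_pos (by omega) 24) hm1
  have hcm : 1 / (m : ℝ) ^ 2 ≤ c / 2 := by rw [hc]; exact num_cmp m n hn0 hm19 hm2
  have hA := asy_quant m n k hm0 hlog hm1 hlt
  have h0 : (0 : ℝ) ≤ 1 / (m : ℝ) ^ 2 := by positivity
  have hl2 : 0 ≤ Real.log 2 := Real.log_nonneg (by norm_num)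
  generalize 1 / (m : ℝ) ^ 2 = x at hcm hA h0
  refine asy_mono (mul_nonneg (mul_nonneg (pow_nonneg h0 n) (pow_nonneg (by norm_num) _))
    (pow_nonneg hl2 _)) ?_ hA
  exact mul_le_mul_of_nonneg_right (mul_le_mul_of_nonneg_right (pow_le_pow_left₀ h0 hcm n)
    (pow_nonneg (by norm_num) _)) (pow_nonneg hl2 _)

theorem choose_m (n : ℕ) : ∃ m, m ^ 24 ≤ n ∧ n < (m + 1) ^ 24 := by
  have hex : ∃ t, n < (t + 1) ^ 24 :=
    ⟨n, lt_of_lt_of_le (Nat.lt_succ_self n) (Nat.le_self_pow (by norm_num) _)⟩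
  refine ⟨Nat.find hex, ?_, Nat.find_spec hex⟩
  rcases Nat.eq_zero_or_pos (Nat.find hex) with h0 | h0
  · rw [h0]; simp
  · have h1 := Nat.find_min hex (m := Nat.find hex - 1) (by omega)
    have h2 : Nat.find hex - 1 + 1 = Nat.find hex := by omega
    rw [h2] at h1
    exact not_lt.1 h1

theorem log_small : ∃ b : ℕ, ∀ m : ℕ, b ≤ m → 368 * Real.log m ≤ m * Real.log 2 := by
  have hl2 : 0 < Real.log 2 := Real.log_pos (by norm_num)
  have hev := Real.isLittleO_log_id_atTop.bound (c := Real.log 2 / 368) (by positivity)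
  rw [Filter.eventually_atTop] at hev
  obtain ⟨B, hB⟩ := hev
  obtain ⟨b, hb⟩ := exists_nat_ge B
  refine ⟨b, fun m hm => ?_⟩
  have h1 := hB m (hb.trans (by exact_mod_cast hm))
  simp only [id, Real.norm_eq_abs] at h1
  rw [abs_of_nonneg (Real.log_natCast_nonneg m),
    abs_of_nonneg (show (0 : ℝ) ≤ (m : ℝ) from Nat.cast_nonneg m)] at h1
  have h2 : Real.log 2 / 368 * m = (m * Real.log 2) / 368 := by ring
  rw [h2, le_div_iff₀ (by norm_num)] at h1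
  linarith

/-- **Power saving in `n`**, in Mathlib words: `C_k ≤ n^(-1/13)` times O'Bryant's constant. -/
theorem quant : ∃ K : ℕ, ∀ k : ℕ, K ≤ k → ∀ n : ℕ, n = Nat.clog 2 k →
    ∃ N₀ : ℕ, ∀ N : ℕ, N₀ ≤ N → ∃ A : Finset ℕ, A ⊆ Finset.Icc 1 N ∧
      (∀ a d : ℕ, 0 < d → ¬ ∀ j < k, a + j * d ∈ A) ∧
      (N : ℝ) * Real.exp (-((n : ℝ) ^ (-(1 : ℝ) / 13) * ((n : ℝ) * (2 : ℝ) ^ (((n : ℝ) - 1) / 2) *
        Real.log 2 ^ (((n : ℝ) - 1) / n)) * Real.log N ^ ((1 : ℝ) / n))) ≤ A.card := by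
  obtain ⟨b, hb⟩ := log_small
  obtain ⟨m0, hm0⟩ : ∃ m0, m0 = max b (2 ^ 19) := ⟨_, rfl⟩
  have hm0b : b ≤ m0 := by rw [hm0]; exact le_max_left _ _
  have hm019 : 2 ^ 19 ≤ m0 := by rw [hm0]; exact le_max_right _ _
  clear hm0
  obtain ⟨n0, hn0⟩ : ∃ n0, n0 = (m0 + 1) ^ 24 := ⟨_, rfl⟩
  refine ⟨2 ^ (n0 + 1), fun k hk n hn => ?_⟩
  have hkn : k ≤ 2 ^ n := by rw [hn]; exact Nat.le_pow_clog (by norm_num) k
  have hnn0 : n0 + 1 ≤ n := (Nat.pow_le_pow_iff_right (by norm_num)).1 (hk.trans hkn)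
  obtain ⟨m, hm1, hm2⟩ := choose_m n
  have hmm0 : m0 ≤ m := by
    by_contra hcon
    have h1 : (m + 1) ^ 24 ≤ (m0 + 1) ^ 24 := Nat.pow_le_pow_left (by omega) 24
    rw [← hn0] at h1
    omega
  have hk1 : 1 < k := lt_of_lt_of_le (Nat.one_lt_two_pow (by omega)) hk
  have hlt : 2 ^ (n - 1) < k := by
    rw [hn]; exact Nat.pow_pred_clog_lt_self (by norm_num) hk1
  have hA2 := quant_step m n k (hm019.trans hmm0) (hb m (hm0b.trans hmm0)) hm1 hm2 hlt _ rfl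
  have hc0 : 0 ≤ (n : ℝ) ^ (-(1 : ℝ) / 13) := Real.rpow_nonneg (Nat.cast_nonneg n) _
  generalize (n : ℝ) ^ (-(1 : ℝ) / 13) = c at hA2 hc0 ⊢
  obtain ⟨N0, hN0⟩ := hA2 1 one_pos
  refine ⟨N0, fun N hN => ?_⟩
  have h := hN0 N hN
  rw [H203.expo n (by omega) c (Real.log N) hc0 (Real.log_natCast_nonneg N)] at h
  exact H203.nat_of_dens h

end Vale.Agent.P057.H419
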